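import Vale.Agent.P245.Defs
import Vale.Agent.P219.BM

/-!
# Prékopa–Leindler for strongly log-concave measures and first consequences
-/

namespace Vale.Agent.P245

open MeasureTheory ProbabilityTheory Set Filter
open scoped RealInnerProductSpace ENNReal NNReal

variable {n : ℕ}

lemma combo_norm_sq (l : ℝ) (x y : Rn n) :
    ‖(1 - l) • x + l • y‖ ^ 2
      = (1 - l) * ‖x‖ ^ 2 + l * ‖y‖ ^ 2 - l * (1 - l) * ‖x - y‖ ^ 2 := by
  simp only [← real_inner_self_eq_norm_sq, inner_add_left, inner_add_right, inner_sub_left,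
    inner_sub_right, real_inner_smul_left, real_inner_smul_right, real_inner_comm y x]
  ring

/-- Prékopa–Leindler relative to a strongly log-concave measure. -/
lemma pl_slc {t l : ℝ} {μ : Measure (Rn n)} (hμ : IsSLC t μ) (hl0 : 0 < l) (hl1 : l < 1)
    {F G H : Rn n → ℝ≥0∞} (hF : Measurable F) (hG : Measurable G) (hH : Measurable H)
    (hyp : ∀ x y, F x ^ (1 - l) * G y ^ l
      ≤ H ((1 - l) • x + l • y) * ENNReal.ofReal (Real.exp (t / 2 * l * (1 - l) * ‖x - y‖ ^ 2))) :
    (∫⁻ x, F x ∂μ) ^ (1 - l) * (∫⁻ x, G x ∂μ) ^ l ≤ ∫⁻ x, H x ∂μ := by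
  obtain ⟨ρ, hρm, hρ0, rfl, hρ⟩ := hμ
  have hd : Measurable fun x => ENNReal.ofReal (ρ x) := hρm.ennreal_ofReal
  rw [lintegral_withDensity_eq_lintegral_mul _ hd hF,
    lintegral_withDensity_eq_lintegral_mul _ hd hG,
    lintegral_withDensity_eq_lintegral_mul _ hd hH]
  have hm := PiLp.volume_preserving_toLp (Fin n)
  rw [← hm.lintegral_comp (hd.mul hF), ← hm.lintegral_comp (hd.mul hG),
    ← hm.lintegral_comp (hd.mul hH)]
  refine P219.pl_pi (sub_pos.2 hl1) hl0 (by ring) n _ _ _ ((hd.mul hF).comp hm.measurable)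
    ((hd.mul hG).comp hm.measurable) ((hd.mul hH).comp hm.measurable) fun p q => ?_
  simp only [Pi.mul_apply, WithLp.toLp_add, WithLp.toLp_smul]
  set x : Rn n := WithLp.toLp 2 p
  set y : Rn n := WithLp.toLp 2 q
  rw [ENNReal.mul_rpow_of_nonneg _ _ (sub_pos.2 hl1).le, ENNReal.mul_rpow_of_nonneg _ _ hl0.le,
    mul_mul_mul_comm, ENNReal.ofReal_rpow_of_nonneg (hρ0 x) (sub_pos.2 hl1).le,
    ENNReal.ofReal_rpow_of_nonneg (hρ0 y) hl0.le,
    ← ENNReal.ofReal_mul (Real.rpow_nonneg (hρ0 x) _)]
  refine (mul_le_mul_right (hyp x y) _).trans ?_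
  rw [mul_comm (H _), ← mul_assoc, ← ENNReal.ofReal_mul (by
    have := hρ0 x; have := hρ0 y; positivity)]
  exact mul_le_mul_left (ENNReal.ofReal_le_ofReal (hρ x y l hl0 hl1)) _

lemma lipschitz_of_fderiv {f : Rn n → ℝ} (hf : ContDiff ℝ 1 f) {M : ℝ}
    (hM : ∀ x, ‖fderiv ℝ f x‖ ≤ M) (x y : Rn n) : |f x - f y| ≤ M * ‖x - y‖ := by
  have := Convex.norm_image_sub_le_of_norm_fderiv_le
    (fun z _ => hf.differentiable one_ne_zero z) (fun z _ => hM z) convex_univ (mem_univ y)
    (mem_univ x)
  rwa [Real.norm_eq_abs] at this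

lemma integrable_bdd {μ : Measure (Rn n)} [IsFiniteMeasure μ] {f : Rn n → ℝ} (hf : Continuous f)
    {M : ℝ} (hM : ∀ x, |f x| ≤ M) : Integrable f μ :=
  Integrable.of_bound hf.aestronglyMeasurable M (.of_forall fun x => by simpa using hM x)

/-- `MgfSLC`. -/
theorem mgfSLC : MgfSLC := by
  intro n t μ hμ ht hslc f hf hf1 s
  obtain ⟨hfc, M, hM⟩ := hf
  have hc := hfc.continuous
  have hMb : ∀ x, |f x| ≤ M := fun x => (hM x).1
  have hb : ∀ u : ℝ, Integrable (fun x => Real.exp (u * f x)) μ := fun u =>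
    integrable_bdd ((continuous_const.mul hc).rexp) (M := Real.exp (|u| * M)) fun x => by
      rw [abs_of_pos (Real.exp_pos _)]
      exact Real.exp_le_exp.2 ((le_abs_self _).trans (by
        rw [abs_mul]; exact mul_le_mul_of_nonneg_left (hMb x) (abs_nonneg u)))
  have hl : ∀ u : ℝ, ∫⁻ x, ENNReal.ofReal (Real.exp (u * f x)) ∂μ
      = ENNReal.ofReal (∫ x, Real.exp (u * f x) ∂μ) := fun u =>
    (ofReal_integral_eq_lintegral_ofReal (hb u) (.of_forall fun x => (Real.exp_pos _).le)).symm
  have h := pl_slc hslc (l := (2 : ℝ)⁻¹) (by norm_num) (by norm_num)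
    (F := fun x => ENNReal.ofReal (Real.exp (s * f x)))
    (G := fun x => ENNReal.ofReal (Real.exp (-s * f x)))
    (H := fun _ => ENNReal.ofReal (Real.exp (s ^ 2 / (2 * t))))
    (by fun_prop) (by fun_prop) measurable_const fun x y => by
      rw [ENNReal.ofReal_rpow_of_pos (Real.exp_pos _), ENNReal.ofReal_rpow_of_pos (Real.exp_pos _),
        ← Real.exp_mul, ← Real.exp_mul, ← ENNReal.ofReal_mul (Real.exp_pos _).le,
        ← ENNReal.ofReal_mul (Real.exp_pos _).le, ← Real.exp_add, ← Real.exp_add]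
      refine ENNReal.ofReal_le_ofReal (Real.exp_le_exp.2 ?_)
      have h1 := lipschitz_of_fderiv hfc hf1 x y
      have h2 : s * (f x - f y) ≤ |s| * ‖x - y‖ :=
        (le_abs_self _).trans (by
          rw [abs_mul]; exact mul_le_mul_of_nonneg_left (by simpa using h1) (abs_nonneg s))
      have h3 : 2 * t * (|s| * ‖x - y‖ / 2) ≤ 2 * t * (s ^ 2 / (2 * t) + t / 8 * ‖x - y‖ ^ 2) := by
        rw [mul_add, mul_div_cancel₀ _ (by positivity), ← sq_abs s]
        nlinarith [sq_nonneg (|s| - t * ‖x - y‖ / 2)]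
      have h4 := le_of_mul_le_mul_left h3 (by positivity)
      nlinarith
  simp only [lintegral_const, measure_univ, mul_one, hl] at h
  set A := ∫ x, Real.exp (s * f x) ∂μ
  set B := ∫ x, Real.exp (-s * f x) ∂μ
  have hA : 0 ≤ A := integral_nonneg fun x => (Real.exp_pos _).le
  have hB : 0 ≤ B := integral_nonneg fun x => (Real.exp_pos _).le
  norm_num only at h
  rw [ENNReal.ofReal_rpow_of_nonneg hA (by norm_num), ENNReal.ofReal_rpow_of_nonneg hB (by norm_num),
    ← ENNReal.ofReal_mul (Real.rpow_nonneg hA _), ← Real.mul_rpow hA hB,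
    ENNReal.ofReal_le_ofReal_iff (Real.exp_pos _).le] at h
  have hAB : A * B ≤ Real.exp (s ^ 2 / t) := by
    have := Real.rpow_le_rpow (Real.rpow_nonneg (mul_nonneg hA hB) _) h (z := 2) (by norm_num)
    rw [← Real.rpow_mul (mul_nonneg hA hB), ← Real.exp_mul] at this
    norm_num at this
    convert this using 2
    field_simp
  set m := ∫ y, f y ∂μ
  have hJ : Real.exp (-s * m) ≤ B := by
    have := convexOn_exp.map_integral_le (μ := μ) (f := fun x => -s * f x)
      Real.continuous_exp.continuousOn isClosed_univ (.of_forall fun _ => mem_univ _)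
      ((integrable_bdd hc hMb).const_mul _) (hb _)
    rwa [integral_const_mul] at this
  calc ∫ x, Real.exp (s * (f x - m)) ∂μ = A * Real.exp (-s * m) := by
        rw [← integral_mul_const]; congr 1; funext x; rw [← Real.exp_add]; ring_nf
    _ ≤ A * B := mul_le_mul_of_nonneg_left hJ hA
    _ ≤ _ := hAB

/-- `TiltSLC`. -/
theorem tiltSLC : TiltSLC := by
  intro n t₀ t th μ hμ hbd hslc
  obtain ⟨R, hR⟩ := hbd
  have hcont : Continuous (texp t th) := by unfold texp; fun_prop
  have hint : Integrable (fun x => Real.exp (texp t th x)) μ := by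
    refine Integrable.of_bound hcont.rexp.aestronglyMeasurable
      (Real.exp (‖th‖ * R + |t| / 2 * R ^ 2)) (hR.mono fun x hx => ?_)
    rw [Real.norm_eq_abs, abs_of_pos (Real.exp_pos _), Real.exp_le_exp]
    have hR0 : 0 ≤ R := (norm_nonneg x).trans hx
    have h1 : ⟪th, x⟫ ≤ ‖th‖ * R :=
      (real_inner_le_norm th x).trans (mul_le_mul_of_nonneg_left hx (norm_nonneg _))
    have h2 : -(t / 2 * ‖x‖ ^ 2) ≤ |t| / 2 * R ^ 2 := by
      have : ‖x‖ ^ 2 ≤ R ^ 2 := pow_le_pow_left₀ (norm_nonneg _) hx 2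
      nlinarith [neg_abs_le t, sq_nonneg ‖x‖, abs_nonneg t]
    unfold texp; linarith
  refine ⟨isProbabilityMeasure_tilted hint, ⟨R, (tilted_absolutelyContinuous μ _).ae_le hR⟩, ?_,
    fun h => ?_⟩
  · obtain ⟨ρ, hρm, hρ0, hρeq, hρ⟩ := hslc
    set Z := ∫ x, Real.exp (texp t th x) ∂μ
    have hZ : 0 ≤ Z := integral_nonneg fun x => (Real.exp_pos _).le
    refine ⟨fun x => ρ x * (Real.exp (texp t th x) / Z), hρm.mul (hcont.rexp.measurable.div_const _),
      fun x => mul_nonneg (hρ0 x) (div_nonneg (Real.exp_pos _).le hZ), ?_, fun x y l hl0 hl1 => ?_⟩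
    · have he : tilt μ t th = μ.withDensity fun x => ENNReal.ofReal (Real.exp (texp t th x) / Z) :=
        rfl
      rw [he]
      conv_lhs => rw [hρeq]
      rw [← withDensity_mul _ hρm.ennreal_ofReal (hcont.rexp.measurable.div_const _).ennreal_ofReal]
      congr 1
      funext x
      simp [ENNReal.ofReal_mul (hρ0 x)]
    · set z := (1 - l) • x + l • y
      set D := ‖x - y‖ ^ 2
      have hez : ∀ w, 0 ≤ Real.exp (texp t th w) / Z := fun w => div_nonneg (Real.exp_pos _).le hZ
      have he : (1 - l) * texp t th x + l * texp t th y + t / 2 * l * (1 - l) * D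
          = texp t th z := by
        simp only [texp, z, D, combo_norm_sq, inner_add_right, real_inner_smul_right]
        ring
      have hw : (Real.exp (texp t th x) / Z) ^ (1 - l) * (Real.exp (texp t th y) / Z) ^ l
          * Real.exp (t / 2 * l * (1 - l) * D) = Real.exp (texp t th z) / Z := by
        rw [Real.div_rpow (Real.exp_pos _).le hZ, Real.div_rpow (Real.exp_pos _).le hZ,
          div_mul_div_comm, ← Real.rpow_add' hZ (by norm_num), sub_add_cancel, Real.rpow_one,
          div_mul_eq_mul_div, ← Real.exp_mul, ← Real.exp_mul, ← Real.exp_add, ← Real.exp_add]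
        congr 2
        linarith
      have key := mul_le_mul (hρ x y l hl0 hl1) hw.le
        (mul_nonneg (mul_nonneg (Real.rpow_nonneg (hez x) _) (Real.rpow_nonneg (hez y) _))
          (Real.exp_pos _).le) (hρ0 z)
      refine le_trans (le_of_eq ?_) key
      rw [Real.mul_rpow (hρ0 x) (hez x), Real.mul_rpow (hρ0 y) (hez y),
        show (t₀ + t) / 2 * l * (1 - l) * D
          = t₀ / 2 * l * (1 - l) * D + t / 2 * l * (1 - l) * D by ring, Real.exp_add]
      ring
  · unfold tilt ex zt num
    rw [integral_tilted]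
    simp only [smul_eq_mul, one_mul]
    rw [← integral_div]
    congr 1
    funext x
    ring

/-- `BorellThree`. -/
theorem borellThree : BorellThree := by
  set q : ℝ := (3 : ℝ) ^ (-(1 : ℝ) / 2) with hq
  have hq0 : 0 < q := by positivity
  have hq1 : q < 1 := Real.rpow_lt_one_of_one_lt_of_neg (by norm_num) (by norm_num)
  have hS : Summable fun k : ℕ => ((k : ℝ) + 1) ^ 3 * q ^ k := by
    have h := (summable_pow_mul_geometric_of_norm_lt_one 3
      (show ‖q‖ < 1 by rwa [Real.norm_eq_abs, abs_of_pos hq0])).comp_injective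
        (add_left_injective 1)
    refine (h.mul_left q⁻¹).congr fun k => ?_
    simp only [Function.comp_apply, Nat.cast_add, Nat.cast_one, pow_succ]
    field_simp
  set S := ∑' k : ℕ, ((k : ℝ) + 1) ^ 3 * q ^ k
  have hS1 : 0 < S := lt_of_lt_of_le (by simp : (0 : ℝ) < ((0 : ℕ) + 1 : ℝ) ^ 3 * q ^ 0)
    (hS.le_tsum 0 fun k _ => by positivity)
  refine ⟨8 * S, by positivity, fun n μ hμ hslc ⟨R, hR⟩ v c => ?_⟩
  set X : Rn n → ℝ := fun x => ⟪x, v⟫ - c
  have hXc : Continuous X := by fun_prop
  set B := ‖v‖ * R + |c|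
  have hB : ∀ᵐ x ∂μ, |X x| ≤ B := hR.mono fun x hx => by
    refine (abs_sub _ _).trans (add_le_add ?_ le_rfl)
    rw [mul_comm]
    exact (abs_real_inner_le_norm x v).trans (mul_le_mul_of_nonneg_right hx (norm_nonneg _))
  have hi : ∀ {F : Rn n → ℝ}, Continuous F → ∀ {K : ℝ}, (∀ᵐ x ∂μ, |F x| ≤ K) → Integrable F μ :=
    fun hF K h => Integrable.of_bound hF.aestronglyMeasurable K (h.mono fun x hx => by simpa using hx)
  have h2i : Integrable (fun x => X x ^ 2) μ := hi (hXc.pow 2) (K := B ^ 2) (hB.mono fun x hx => by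
    rw [abs_pow]; exact pow_le_pow_left₀ (abs_nonneg _) hx 2)
  have h3i : Integrable (fun x => |X x| ^ 3) μ := hi (hXc.abs.pow 3) (K := B ^ 3)
    (hB.mono fun x hx => by
      rw [abs_pow, abs_abs]; exact pow_le_pow_left₀ (abs_nonneg _) hx 3)
  set m := ∫ x, X x ^ 2 ∂μ with hm
  have hm0 : 0 ≤ m := integral_nonneg fun x => sq_nonneg _
  rcases hm0.eq_or_lt with h0 | hmp
  · have hz := (integral_eq_zero_iff_of_nonneg (fun x => sq_nonneg _) h2i).1 h0.symm
    have : ∫ x, |X x| ^ 3 ∂μ = 0 := integral_eq_zero_of_ae (hz.mono fun x hx => by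
      simpa using hx)
    show ∫ x, |X x| ^ 3 ∂μ ≤ _
    rw [this]
    positivity
  set a := 2 * Real.sqrt m
  have ha : 0 < a := by positivity
  have ha2 : a ^ 2 = 4 * m := by rw [mul_pow, Real.sq_sqrt hm0]; norm_num
  let P : ℕ → Set (Rn n) := fun k => {x | (k : ℝ) * a < |X x|}
  have hPm : ∀ k, MeasurableSet (P k) := fun k =>
    measurableSet_lt measurable_const hXc.abs.measurable
  -- one-step Chebyshev
  have h1 : μ.real (P 1) ≤ 1 / 4 := by
    have hh := mul_meas_ge_le_integral_of_nonneg (μ := μ) (.of_forall fun x => sq_nonneg (X x)) h2i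
      (a ^ 2)
    have hsub : P 1 ⊆ {x | a ^ 2 ≤ X x ^ 2} := fun x hx => by
      simp only [P, Nat.cast_one, one_mul, mem_ofPred_eq] at hx ⊢
      rw [← sq_abs (X x)]
      exact pow_le_pow_left₀ ha.le hx.le 2
    have hmono := measureReal_mono (μ := μ) hsub
    rw [ha2] at hh hmono
    rw [← hm] at hh
    nlinarith
  have hk : ∀ k, μ.real (P k) ≤ q ^ k := by
    intro k
    rcases k with _ | _ | k
    · simp
    · refine h1.trans ?_
      rw [pow_one]
      by_contra hlt
      have : q ^ 2 < (1 / 4 : ℝ) ^ 2 := pow_lt_pow_left₀ (not_le.1 hlt) hq0.le two_ne_zero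
      rw [hq, ← Real.rpow_natCast, ← Real.rpow_mul (by norm_num)] at this
      norm_num at this
    set j : ℝ := ((k + 2 : ℕ) : ℝ) with hj
    have hj2 : 2 ≤ j := by rw [hj]; push_cast; linarith [(k.cast_nonneg : (0 : ℝ) ≤ k)]
    set l := (j - 1) / (j + 1) with hl
    have hl0 : 0 < l := by rw [hl]; exact div_pos (by linarith) (by linarith)
    have hl1 : l < 1 := by rw [hl, div_lt_one (by linarith)]; linarith
    set A := (P 1)ᶜ
    have hA : 3 / 4 ≤ μ.real A := by
      rw [probReal_compl_eq_one_sub (hPm 1)]; linarith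
    have h := pl_slc hslc hl0 hl1 (F := (P (k + 2)).indicator 1) (G := A.indicator 1)
      (H := (P 1).indicator 1) (measurable_one.indicator (hPm _))
      (measurable_one.indicator (hPm 1).compl) (measurable_one.indicator (hPm 1)) fun x y => by
        simp only [zero_div, zero_mul, Real.exp_zero, ENNReal.ofReal_one, mul_one]
        by_cases hx : x ∈ P (k + 2)
        · by_cases hy : y ∈ A
          · rw [indicator_of_mem hx, indicator_of_mem hy, indicator_of_mem]
            · simp
            simp only [P, A, mem_compl_iff, mem_ofPred_eq, Nat.cast_one, one_mul, not_lt] at hx hy ⊢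
            have hz : X ((1 - l) • x + l • y) = (1 - l) * X x + l * X y := by
              simp only [X, inner_add_left, real_inner_smul_left]; ring
            rw [hz]
            have e1 : (1 - l) * |X x| = |(1 - l) * X x| := by
              rw [abs_mul, abs_of_pos (sub_pos.2 hl1)]
            have e2 : |l * X y| = l * |X y| := by rw [abs_mul, abs_of_pos hl0]
            have e3 := abs_sub_abs_le_abs_sub ((1 - l) * X x) (-(l * X y))
            rw [sub_neg_eq_add, abs_neg] at e3
            have e4 : (1 - l) * j - l = 1 := by rw [hl]; field_simp; ring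
            have e5 : (1 - l) * (j * a) < (1 - l) * |X x| :=
              mul_lt_mul_of_pos_left hx (sub_pos.2 hl1)
            have e6 : l * |X y| ≤ l * a := mul_le_mul_of_nonneg_left hy hl0.le
            nlinarith
          · simp [indicator_of_notMem hy, ENNReal.zero_rpow_of_pos hl0]
        · simp [indicator_of_notMem hx, ENNReal.zero_rpow_of_pos (sub_pos.2 hl1)]
    rw [lintegral_indicator_one (hPm _), lintegral_indicator_one (hPm 1).compl,
      lintegral_indicator_one (hPm 1), ← ofReal_measureReal, ← ofReal_measureReal,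
      ← ofReal_measureReal, ENNReal.ofReal_rpow_of_nonneg measureReal_nonneg (sub_pos.2 hl1).le,
      ENNReal.ofReal_rpow_of_nonneg measureReal_nonneg hl0.le,
      ← ENNReal.ofReal_mul (by positivity),
      ENNReal.ofReal_le_ofReal_iff measureReal_nonneg] at h
    set p := μ.real (P (k + 2))
    have hp0 : 0 ≤ p := measureReal_nonneg
    have h34 : (3 / 4 : ℝ) ≤ μ.real A ^ l :=
      hA.trans (Real.self_le_rpow_of_le_one measureReal_nonneg measureReal_le_one hl1.le)
    have h5 : p ^ (1 - l) ≤ 1 / 3 := by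
      nlinarith [mul_le_mul_of_nonneg_left h34 (Real.rpow_nonneg hp0 (1 - l))]
    have h6 := Real.rpow_le_rpow (Real.rpow_nonneg hp0 _) h5 (z := (1 - l)⁻¹)
      (inv_nonneg.2 (sub_pos.2 hl1).le)
    rw [← Real.rpow_mul hp0, mul_inv_cancel₀ (sub_pos.2 hl1).ne', Real.rpow_one] at h6
    refine h6.trans ?_
    rw [one_div, Real.inv_rpow (by norm_num), ← Real.rpow_neg (by norm_num), ← Real.rpow_natCast,
      hq, ← Real.rpow_mul (by norm_num)]
    refine Real.rpow_le_rpow_of_exponent_le (by norm_num) ?_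
    have : (1 - l)⁻¹ = (j + 1) / 2 := by rw [hl]; field_simp; ring
    rw [this]
    linarith
  set N := ⌈B / a⌉₊
  have hpt : ∀ᵐ x ∂μ, |X x| ^ 3
      ≤ ∑ k ∈ Finset.range N, a ^ 3 * ((k : ℝ) + 1) ^ 3 * (P k).indicator 1 x := by
    filter_upwards [hB] with x hx
    rcases (abs_nonneg (X x)).eq_or_lt with he | hpos
    · rw [← he, zero_pow three_ne_zero]
      exact Finset.sum_nonneg fun k _ =>
        mul_nonneg (by positivity) (indicator_nonneg (fun _ _ => zero_le_one) x)
    set r := ⌈|X x| / a⌉₊ with hr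
    have hr1 : 1 ≤ r := Nat.ceil_pos.2 (by positivity)
    have hrN : r ≤ N := Nat.ceil_mono (div_le_div_of_nonneg_right hx ha.le)
    have hmem : x ∈ P (r - 1) := by
      show ((r - 1 : ℕ) : ℝ) * a < |X x|
      have := Nat.ceil_lt_add_one (a := |X x| / a) (by positivity)
      rw [← hr] at this
      rw [Nat.cast_sub hr1, Nat.cast_one, ← lt_div_iff₀ ha]
      linarith
    refine le_trans ?_ (Finset.single_le_sum (f := fun k : ℕ =>
      a ^ 3 * ((k : ℝ) + 1) ^ 3 * (P k).indicator 1 x) (fun k _ =>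
      mul_nonneg (by positivity) (indicator_nonneg (fun _ _ => zero_le_one) x))
      (Finset.mem_range.2 (show r - 1 < N by omega)))
    simp only [indicator_of_mem hmem, Pi.one_apply, mul_one, Nat.cast_sub hr1, Nat.cast_one,
      sub_add_cancel, ← mul_pow]
    refine pow_le_pow_left₀ (abs_nonneg _) ?_ 3
    rw [mul_comm, ← div_le_iff₀ ha]
    exact Nat.le_ceil _
  have hii : ∀ k : ℕ, Integrable (fun x => a ^ 3 * ((k : ℝ) + 1) ^ 3 * (P k).indicator 1 x) μ :=
    fun k => ((integrable_const 1).indicator (hPm k)).const_mul _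
  calc ∫ x, |X x| ^ 3 ∂μ
      ≤ ∫ x, ∑ k ∈ Finset.range N, a ^ 3 * ((k : ℝ) + 1) ^ 3 * (P k).indicator 1 x ∂μ :=
        integral_mono_ae h3i (integrable_finsetSum _ fun k _ => hii k) hpt
    _ = ∑ k ∈ Finset.range N, a ^ 3 * (((k : ℝ) + 1) ^ 3 * μ.real (P k)) := by
        rw [integral_finsetSum _ fun k _ => hii k]
        refine Finset.sum_congr rfl fun k _ => ?_
        rw [integral_const_mul, integral_indicator_one (hPm k)]
        ring
    _ ≤ a ^ 3 * S := by
        rw [← Finset.mul_sum]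
        refine mul_le_mul_of_nonneg_left ?_ (by positivity)
        exact (Finset.sum_le_sum fun k _ => mul_le_mul_of_nonneg_left (hk k)
          (by positivity : (0 : ℝ) ≤ ((k : ℝ) + 1) ^ 3)).trans
            (hS.sum_le_tsum _ fun k _ => by positivity)
    _ = 8 * S * m ^ ((3 : ℝ) / 2) := by
        rw [mul_pow, Real.sqrt_eq_rpow, ← Real.rpow_natCast (m ^ (1 / 2 : ℝ)), ← Real.rpow_mul hm0]
        norm_num
        ring

end Vale.Agent.P245
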