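import Vale.Agent.P245.Defs

/-!
# P245, M1: smooth approximation of bounded Lipschitz functions
-/

namespace Vale.Agent.P245

open MeasureTheory Metric
open scoped Convolution NNReal

/-- `TestApprox`. -/
theorem testApprox : TestApprox := by
  intro n f M hf hM ε hε
  set φ : ContDiffBump (0 : Rn n) := ⟨ε / 2, ε, half_pos hε, half_lt_self hε⟩
  set k : Rn n → ℝ := φ.normed volume
  set L := ContinuousLinearMap.lsmul ℝ ℝ (E := ℝ)
  set g : Rn n → ℝ := k ⋆[L, volume] f
  have hfc : Continuous f := hf.continuous
  have hkc : HasCompactSupport k := φ.hasCompactSupport_normed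
  have hk1 : ContDiff ℝ 1 k := φ.contDiff_normed
  have hfi : LocallyIntegrable f volume := hfc.locallyIntegrable
  have hgc : ContDiff ℝ 1 g := hkc.contDiff_convolution_left L hk1 hfi
  have hki : Integrable k volume := φ.integrable_normed
  have hk0 : ∀ x, 0 ≤ k x := φ.nonneg_normed
  have hkint : ∫ t, k t = 1 := φ.integral_normed
  have hge : ∀ x, g x = ∫ t, k t * f (x - t) := fun x => rfl
  have hint : ∀ x, Integrable fun t => k t * f (x - t) := fun x =>
    hki.mul_bdd (hfc.comp (continuous_const.sub continuous_id)).aestronglyMeasurable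
      (ae_of_all _ fun t => hM _)
  have hgM : ∀ x, |g x| ≤ M := fun x => by
    rw [hge]
    refine abs_integral_le_integral_abs.trans ?_
    refine (integral_mono (hint x).abs (hki.const_mul M) fun t => ?_).trans_eq ?_
    · rw [abs_mul, abs_of_nonneg (hk0 t), mul_comm]
      exact mul_le_mul_of_nonneg_right (hM _) (hk0 t)
    · rw [integral_const_mul, hkint, mul_one]
  have hlip : LipschitzWith 1 g := LipschitzWith.of_dist_le_mul fun x y => by
    rw [Real.dist_eq, hge, hge, ← integral_sub (hint x) (hint y), NNReal.coe_one, one_mul]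
    refine abs_integral_le_integral_abs.trans ?_
    refine (integral_mono ((hint x).sub (hint y)).abs (hki.mul_const (dist x y))
      fun t => ?_).trans_eq ?_
    · rw [Pi.sub_apply, ← mul_sub, abs_mul, abs_of_nonneg (hk0 t)]
      refine mul_le_mul_of_nonneg_left ?_ (hk0 t)
      simpa [← Real.dist_eq] using hf.dist_le_mul (x - t) (y - t)
    · rw [integral_mul_const, hkint, one_mul]
  have hd1 : ∀ x, ‖fderiv ℝ g x‖ ≤ 1 := fun x => by
    simpa using norm_fderiv_le_of_lipschitz ℝ hlip (x₀ := x)
  set dk := fderiv ℝ k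
  have hdk : Integrable dk volume :=
    (hk1.continuous_fderiv one_ne_zero).integrable_of_hasCompactSupport (hkc.fderiv ℝ)
  set C := ∫ t, ‖dk t‖
  have hdge : ∀ x, fderiv ℝ g x = ∫ t, f (x - t) • dk t := fun x => by
    rw [(hkc.hasFDerivAt_convolution_left L hk1 hfi x).fderiv, convolution_def]
    congr 1
    funext t
    ext v
    simp [L, dk, mul_comm]
  have hdi : ∀ x, Integrable fun t => f (x - t) • dk t := fun x =>
    hdk.bdd_smul M (hfc.comp (continuous_const.sub continuous_id)).aestronglyMeasurable
      (ae_of_all _ fun t => hM _)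
  have hd2 : ∀ x y, ‖fderiv ℝ g x - fderiv ℝ g y‖ ≤ C * ‖x - y‖ := fun x y => by
    rw [hdge, hdge, ← integral_sub (hdi x) (hdi y)]
    refine (norm_integral_le_integral_norm _).trans ?_
    rw [← integral_mul_const]
    refine integral_mono ((hdi x).sub (hdi y)).norm (hdk.norm.mul_const _) fun t => ?_
    rw [← sub_smul, norm_smul, mul_comm ‖dk t‖, Real.norm_eq_abs]
    refine mul_le_mul_of_nonneg_right ?_ (norm_nonneg _)
    have h := hf.dist_le_mul (x - t) (y - t)
    rw [Real.dist_eq, NNReal.coe_one, one_mul, dist_eq_norm, sub_sub_sub_cancel_right] at h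
    exact h
  refine ⟨g, ⟨hgc, max M (max 1 C), fun x => ⟨(hgM x).trans (le_max_left _ _),
    (hd1 x).trans ((le_max_left _ _).trans (le_max_right _ _)), fun y => (hd2 x y).trans
      (mul_le_mul_of_nonneg_right ((le_max_right _ _).trans (le_max_right _ _)) (norm_nonneg _))⟩⟩,
    hd1, fun x => ?_⟩
  have hball : ∀ y ∈ ball x φ.rOut, dist (f y) (f x) ≤ ε := fun y hy => by
    have h := hf.dist_le_mul y x
    rw [NNReal.coe_one, one_mul] at h
    exact h.trans (le_of_lt hy)
  have := φ.dist_normed_convolution_le (μ := volume) hfc.aestronglyMeasurable hball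
  rwa [Real.dist_eq] at this

end Vale.Agent.P245
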