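import Vale.Agent.P245.SLC.Basic

/-!
# P245, M1: log-Sobolev and Poincaré for strongly log-concave measures

Bobkov–Ledoux: Prékopa–Leindler with `exp (g / (1 - l))`, `1`, and `l → 0`.
-/

namespace Vale.Agent.P245

open MeasureTheory ProbabilityTheory Set Filter Topology Real
open scoped RealInnerProductSpace ENNReal NNReal

variable {n : ℕ}

/-- A quadratic upper bound from a Lipschitz derivative. -/
lemma taylor_upper {g : Rn n → ℝ} (hg : ContDiff ℝ 1 g) {L : ℝ}
    (hL : ∀ x y, ‖fderiv ℝ g x - fderiv ℝ g y‖ ≤ L * ‖x - y‖) (hL0 : 0 ≤ L) (z h : Rn n) :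
    g (z + h) ≤ g z + ‖fderiv ℝ g z‖ * ‖h‖ + L * ‖h‖ ^ 2 := by
  have := Convex.norm_image_sub_le_of_norm_fderiv_le' (φ := fderiv ℝ g z)
    (fun x _ => hg.differentiable one_ne_zero x)
    (fun x hx => (hL x z).trans (mul_le_mul_of_nonneg_left
      (by simpa [dist_eq_norm] using hx : ‖x - z‖ ≤ ‖h‖) hL0))
    (convex_closedBall z ‖h‖) (Metric.mem_closedBall_self (norm_nonneg h))
    (show z + h ∈ Metric.closedBall z ‖h‖ by simp [dist_eq_norm])
  rw [add_sub_cancel_left, Real.norm_eq_abs, abs_le] at this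
  have h1 := (le_abs_self _).trans ((fderiv ℝ g z).le_opNorm h)
  nlinarith [this.2]

/-- The log-Sobolev inequality in the form `Ent (exp g) ≤ 1/(2t) ∫ exp g |∇g|²`. -/
lemma lsi_exp {t : ℝ} {μ : Measure (Rn n)} [IsProbabilityMeasure μ] (ht : 0 < t)
    (hslc : IsSLC t μ) {g : Rn n → ℝ} (hg : ContDiff ℝ 1 g) {B : ℝ} (hB : ∀ x, |g x| ≤ B)
    (hB1 : ∀ x, ‖fderiv ℝ g x‖ ≤ B)
    (hB2 : ∀ x y, ‖fderiv ℝ g x - fderiv ℝ g y‖ ≤ B * ‖x - y‖) :
    ∫ x, exp (g x) * g x ∂μ - (∫ x, exp (g x) ∂μ) * log (∫ x, exp (g x) ∂μ)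
      ≤ 1 / (2 * t) * ∫ x, exp (g x) * ‖fderiv ℝ g x‖ ^ 2 ∂μ := by
  have hB0 : 0 ≤ B := (abs_nonneg _).trans (hB 0)
  have hc := hg.continuous
  have hdc := (hg.continuous_fderiv one_ne_zero).norm
  set Z := ∫ x, exp (g x) ∂μ with hZdef
  set A := ∫ x, exp (g x) * g x ∂μ with hAdef
  set W := ∫ x, exp (g x) * ‖fderiv ℝ g x‖ ^ 2 ∂μ
  have hei : Integrable (fun x => exp (g x)) μ :=
    integrable_bdd hc.rexp (M := exp B) fun x => by
      rw [abs_exp]; exact exp_le_exp.2 ((le_abs_self _).trans (hB x))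
  have hai : Integrable (fun x => exp (g x) * g x) μ := hei.mul_bdd hc.aestronglyMeasurable
    (ae_of_all _ hB)
  have hwi : Integrable (fun x => exp (g x) * ‖fderiv ℝ g x‖ ^ 2) μ :=
    hei.mul_bdd (hdc.pow 2).aestronglyMeasurable (c := B ^ 2) (ae_of_all _ fun x => by
      rw [norm_pow, norm_norm]; exact pow_le_pow_left₀ (norm_nonneg _) (hB1 x) 2)
  have hZ : 0 < Z := integral_exp_pos hei
  set a : ℝ → ℝ := fun l => t * (1 - l) - 2 * B * l
  set u : ℝ → ℝ := fun l => l / (1 - l)
  have key : ∀ l, 0 < l → l < 1 → 0 < a l → 0 < Z + u l * A →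
      A / (Z + u l * A) - log Z ≤ exp (l * B ^ 2 / (2 * a l)) / (2 * a l) * (W / Z) := by
    intro l hl0 hl1 ha hpos
    have h1l : 0 < 1 - l := sub_pos.2 hl1
    have hu : (1 - l)⁻¹ = 1 + u l := by
      show _ = 1 + l / (1 - l)
      field_simp; ring
    set s := fun x => l * ‖fderiv ℝ g x‖ ^ 2 / (2 * a l)
    have hs0 : ∀ x, 0 ≤ s x := fun x => by simp only [s]; positivity
    have hsB : ∀ x, s x ≤ l * B ^ 2 / (2 * a l) := fun x => by
      simp only [s]
      gcongr
      exact hB1 x
    have hsc : Continuous s := ((continuous_const.mul (hdc.pow 2)).div_const _)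
    have hFi : Integrable (fun x => exp (g x * (1 - l)⁻¹)) μ :=
      integrable_bdd (hc.mul continuous_const).rexp (M := exp (B * (1 - l)⁻¹)) fun x => by
        rw [abs_exp]
        exact exp_le_exp.2 (mul_le_mul_of_nonneg_right ((le_abs_self _).trans (hB x))
          (inv_nonneg.2 h1l.le))
    have hHi : Integrable (fun x => exp (g x + s x)) μ :=
      integrable_bdd (hc.add hsc).rexp (M := exp (B + l * B ^ 2 / (2 * a l))) fun x => by
        rw [abs_exp]; exact exp_le_exp.2 (add_le_add ((le_abs_self _).trans (hB x)) (hsB x))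
    have hpl := pl_slc hslc hl0 hl1 (F := fun x => ENNReal.ofReal (exp (g x * (1 - l)⁻¹)))
      (G := fun _ => 1) (H := fun x => ENNReal.ofReal (exp (g x + s x)))
      (hc.mul continuous_const).rexp.measurable.ennreal_ofReal measurable_const
      (hc.add hsc).rexp.measurable.ennreal_ofReal fun x y => by
        rw [ENNReal.one_rpow, mul_one, ENNReal.ofReal_rpow_of_pos (exp_pos _), ← exp_mul,
          ← ENNReal.ofReal_mul (exp_pos _).le, ← exp_add]
        refine ENNReal.ofReal_le_ofReal (exp_le_exp.2 ?_)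
        rw [mul_assoc, inv_mul_cancel₀ h1l.ne', mul_one]
        set z := (1 - l) • x + l • y
        have hx : x = z + l • (x - y) := by simp only [z]; module
        have h := taylor_upper hg hB2 hB0 z (l • (x - y))
        rw [← hx, norm_smul, Real.norm_eq_abs, abs_of_pos hl0] at h
        set d := ‖x - y‖
        set w := ‖fderiv ℝ g z‖ with hw
        have hamgm : w * (l * d) ≤ l * w ^ 2 / (2 * a l) + l * a l * d ^ 2 / 2 := by
          have h1 : 0 ≤ l * (w - a l * d) ^ 2 / (2 * a l) := by positivity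
          have h2 : l * (w - a l * d) ^ 2 / (2 * a l)
              = l * w ^ 2 / (2 * a l) + l * a l * d ^ 2 / 2 - w * (l * d) := by
            field_simp; ring
          linarith
        have he : l * a l * d ^ 2 / 2 + B * (l * d) ^ 2 = t / 2 * l * (1 - l) * d ^ 2 := by
          simp only [a]; ring
        simp only [s, ← hw]
        linarith
    rw [lintegral_const, measure_univ, mul_one, ENNReal.one_rpow, mul_one,
      ← ofReal_integral_eq_lintegral_ofReal hFi (ae_of_all _ fun x => (exp_pos _).le),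
      ← ofReal_integral_eq_lintegral_ofReal hHi (ae_of_all _ fun x => (exp_pos _).le),
      ENNReal.ofReal_rpow_of_pos (integral_exp_pos hFi),
      ENNReal.ofReal_le_ofReal_iff (integral_exp_pos hHi).le] at hpl
    have hlog := log_le_log (rpow_pos_of_pos (integral_exp_pos hFi) _) hpl
    rw [log_rpow (integral_exp_pos hFi)] at hlog
    -- lower bound of the left side
    have hlow : Z + u l * A ≤ ∫ x, exp (g x * (1 - l)⁻¹) ∂μ := by
      have e : Z + u l * A = ∫ x, (exp (g x) + u l * (exp (g x) * g x)) ∂μ := by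
        rw [integral_add hei (hai.const_mul _), integral_const_mul]
      rw [e]
      refine integral_mono (hei.add (hai.const_mul _)) hFi fun x => ?_
      rw [hu, mul_add, mul_one, exp_add]
      have := mul_le_mul_of_nonneg_left (add_one_le_exp (g x * u l)) (exp_pos (g x)).le
      linarith
    have h2 : log Z + u l * A / (Z + u l * A) ≤ log (Z + u l * A) := by
      have := one_sub_inv_le_log_of_pos (div_pos hpos hZ)
      rw [log_div hpos.ne' hZ.ne', inv_div] at this
      have e : u l * A / (Z + u l * A) = 1 - Z / (Z + u l * A) := by field_simp; ring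
      linarith
    have h3 : (1 - l) * (log Z + u l * A / (Z + u l * A)) ≤ log (∫ x, exp (g x + s x) ∂μ) :=
      (mul_le_mul_of_nonneg_left (h2.trans (log_le_log hpos hlow)) h1l.le).trans hlog
    -- upper bound of the right side
    set E := exp (l * B ^ 2 / (2 * a l))
    have hup : ∫ x, exp (g x + s x) ∂μ ≤ Z + E * (l / (2 * a l)) * W := by
      have e : Z + E * (l / (2 * a l)) * W
          = ∫ x, (exp (g x) + E * (l / (2 * a l)) * (exp (g x) * ‖fderiv ℝ g x‖ ^ 2)) ∂μ := by
        rw [integral_add hei (hwi.const_mul _), integral_const_mul]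
      rw [e]
      refine integral_mono hHi (hei.add (hwi.const_mul _)) fun x => ?_
      rw [exp_add]
      have h4 : exp (s x) ≤ 1 + s x * exp (s x) := by
        have h5 := mul_le_mul_of_nonneg_right (one_sub_le_exp_neg (s x)) (exp_pos (s x)).le
        rw [← exp_add, neg_add_cancel, exp_zero] at h5
        linarith
      have h6 : s x * exp (s x) ≤ s x * E :=
        mul_le_mul_of_nonneg_left (exp_le_exp.2 (hsB x)) (hs0 x)
      have h7 := mul_le_mul_of_nonneg_left (h4.trans (by linarith : _ ≤ 1 + s x * E))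
        (exp_pos (g x)).le
      have e2 : exp (g x) * (s x * E)
          = E * (l / (2 * a l)) * (exp (g x) * ‖fderiv ℝ g x‖ ^ 2) := by simp only [s]; ring
      linarith
    have h8 : log (∫ x, exp (g x + s x) ∂μ) ≤ log Z + E * (l / (2 * a l)) * W / Z := by
      refine (log_le_log (integral_exp_pos hHi) hup).trans ?_
      have hE0 : 0 < Z + E * (l / (2 * a l)) * W := lt_of_lt_of_le (integral_exp_pos hHi) hup
      have := log_le_sub_one_of_pos (div_pos hE0 hZ)
      rw [log_div hE0.ne' hZ.ne', add_div, div_self hZ.ne'] at this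
      linarith
    have h9 := h3.trans h8
    have e1 : (1 - l) * (log Z + u l * A / (Z + u l * A))
        = log Z + l * (A / (Z + u l * A) - log Z) := by
      have hul : (1 - l) * u l = l := by simp only [u]; field_simp
      linear_combination A / (Z + u l * A) * hul
    have e2 : E * (l / (2 * a l)) * W / Z = l * (E / (2 * a l) * (W / Z)) := by ring
    rw [e1, e2] at h9
    exact le_of_mul_le_mul_left (by linarith) hl0
  have hu0 : ContinuousAt u 0 := continuousAt_id.div (continuousAt_const.sub continuousAt_id)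
    (by norm_num)
  have ha0 : ContinuousAt a 0 := by simp only [a]; fun_prop
  have ht1 : Tendsto (fun l => A / (Z + u l * A) - log Z) (𝓝[>] 0) (𝓝 (A / Z - log Z)) := by
    have h : ContinuousAt (fun l => A / (Z + u l * A) - log Z) 0 :=
      (continuousAt_const.div (continuousAt_const.add (hu0.mul continuousAt_const))
        (by simpa [u] using hZ.ne')).sub continuousAt_const
    simpa [u] using h.tendsto.mono_left nhdsWithin_le_nhds
  have ht2 : Tendsto (fun l => exp (l * B ^ 2 / (2 * a l)) / (2 * a l) * (W / Z)) (𝓝[>] 0)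
      (𝓝 (1 / (2 * t) * (W / Z))) := by
    have h : ContinuousAt (fun l => exp (l * B ^ 2 / (2 * a l)) / (2 * a l) * (W / Z)) 0 :=
      ((((continuousAt_id.mul continuousAt_const).div (continuousAt_const.mul ha0)
        (by simp [a, ht.ne'])).rexp).div (continuousAt_const.mul ha0)
          (by simp [a, ht.ne'])).mul continuousAt_const
    simpa [a] using h.tendsto.mono_left nhdsWithin_le_nhds
  have hev : ∀ᶠ l in 𝓝[>] (0 : ℝ), A / (Z + u l * A) - log Z
      ≤ exp (l * B ^ 2 / (2 * a l)) / (2 * a l) * (W / Z) := by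
    have e1 : ∀ᶠ l in 𝓝[>] (0 : ℝ), 0 < a l :=
      nhdsWithin_le_nhds (ha0.eventually_const_lt (by simp [a, ht]))
    have e2 : ∀ᶠ l in 𝓝[>] (0 : ℝ), 0 < Z + u l * A :=
      nhdsWithin_le_nhds ((continuousAt_const.add (hu0.mul continuousAt_const)).eventually_const_lt
        (by simpa [u] using hZ))
    have e3 : ∀ᶠ l in 𝓝[>] (0 : ℝ), l < 1 :=
      nhdsWithin_le_nhds (eventually_lt_nhds one_pos)
    filter_upwards [e1, e2, e3, self_mem_nhdsWithin] with l h1 h2 h3 h4 using key l h4 h3 h1 h2
  have h := mul_le_mul_of_nonneg_left (le_of_tendsto_of_tendsto ht1 ht2 hev) hZ.le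
  rw [mul_sub, mul_div_cancel₀ _ hZ.ne', mul_left_comm, mul_div_cancel₀ _ hZ.ne'] at h
  linarith

/-- `LsiSLC`. -/
theorem lsiSLC : LsiSLC := by
  intro n t μ hμ ht hslc f hf
  obtain ⟨hfc, M₀, hM₀⟩ := hf
  set M := max M₀ 1
  have hM1 : 1 ≤ M := le_max_right _ _
  have hfb : ∀ x, |f x| ≤ M := fun x => (hM₀ x).1.trans (le_max_left _ _)
  have hfd : ∀ x, ‖fderiv ℝ f x‖ ≤ M := fun x => (hM₀ x).2.1.trans (le_max_left _ _)
  have hfl : ∀ x y, ‖fderiv ℝ f x - fderiv ℝ f y‖ ≤ M * ‖x - y‖ := fun x y =>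
    ((hM₀ x).2.2 y).trans (mul_le_mul_of_nonneg_right (le_max_left _ _) (norm_nonneg _))
  have hc := hfc.continuous
  have hdf := (hfc.continuous_fderiv one_ne_zero).norm
  have hIi : Integrable (fun x => ‖fderiv ℝ f x‖ ^ 2) μ :=
    integrable_bdd (hdf.pow 2) (M := M ^ 2) fun x => by
      rw [abs_pow, abs_norm]; exact pow_le_pow_left₀ (norm_nonneg _) (hfd x) 2
  have key : ∀ η, 0 < η → η ≤ 1 →
      ∫ x, (f x ^ 2 + η) * log (f x ^ 2 + η) ∂μ
        - (∫ x, (f x ^ 2 + η) ∂μ) * log (∫ x, (f x ^ 2 + η) ∂μ) ≤ 2 / t * energy μ f := by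
    intro η hη hη1
    have hp : ∀ x, 0 < f x ^ 2 + η := fun x => by positivity
    set g := fun x => log (f x ^ 2 + η)
    set q := fun x => 2 * f x / (f x ^ 2 + η)
    have hgc : ContDiff ℝ 1 g := ((hfc.pow 2).add contDiff_const).log fun x => (hp x).ne'
    have hgd : ∀ x, fderiv ℝ g x = q x • fderiv ℝ f x := fun x => by
      have h := ((((hfc.differentiable one_ne_zero x).hasFDerivAt).pow 2).add_const η).log (hp x).ne'
      rw [h.fderiv]
      simp only [smul_smul, q]
      congr 1
      push_cast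
      ring
    have hqb : ∀ x, |q x| ≤ 2 * M / η := fun x => by
      simp only [q, abs_div, abs_of_pos (hp x), abs_mul, abs_two]
      gcongr
      · exact hfb x
      · linarith [sq_nonneg (f x)]
    have hql : ∀ x y, |q x - q y| ≤ 2 / η * (M * ‖x - y‖) := fun x y => by
      refine le_trans ?_ (mul_le_mul_of_nonneg_left (lipschitz_of_fderiv hfc hfd x y) (by positivity))
      have e : q x - q y = 2 * (f x - f y) * (η - f x * f y) / ((f x ^ 2 + η) * (f y ^ 2 + η)) := by
        simp only [q]
        field_simp [(hp x).ne', (hp y).ne']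
        ring
      rw [e, abs_div, abs_of_pos (mul_pos (hp x) (hp y)), div_mul_eq_mul_div,
        div_le_div_iff₀ (mul_pos (hp x) (hp y)) hη, abs_mul, abs_mul, abs_two]
      have h1 : η * |η - f x * f y| ≤ (f x ^ 2 + η) * (f y ^ 2 + η) := by
        have h2 : |η - f x * f y| ≤ η + (f x ^ 2 + f y ^ 2) := abs_le.2
          ⟨by nlinarith [sq_nonneg (f x - f y)], by nlinarith [sq_nonneg (f x + f y)]⟩
        nlinarith [mul_le_mul_of_nonneg_left h2 hη.le, mul_nonneg (sq_nonneg (f x)) (sq_nonneg (f y))]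
      calc 2 * |f x - f y| * |η - f x * f y| * η = 2 * |f x - f y| * (η * |η - f x * f y|) := by ring
        _ ≤ 2 * |f x - f y| * ((f x ^ 2 + η) * (f y ^ 2 + η)) :=
          mul_le_mul_of_nonneg_left h1 (by positivity)
    have hgb : ∀ x, |g x| ≤ |log η| + |log (M ^ 2 + 1)| := fun x => by
      have h1 := log_le_log hη (show η ≤ f x ^ 2 + η by linarith [sq_nonneg (f x)])
      have h2 := log_le_log (hp x) (show f x ^ 2 + η ≤ M ^ 2 + 1 by
        nlinarith [pow_le_pow_left₀ (abs_nonneg _) (hfb x) 2, sq_abs (f x)])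
      simp only [g, abs_le]
      constructor <;>
        linarith [neg_abs_le (log η), le_abs_self (log (M ^ 2 + 1)), abs_nonneg (log η),
          abs_nonneg (log (M ^ 2 + 1))]
    set B := |log η| + |log (M ^ 2 + 1)| + 2 * M * M / η + 2 * M * M / η + 2 * M * M / η
    have hMη : 0 ≤ 2 * M * M / η := by positivity
    have hlsi := lsi_exp (B := B) ht hslc hgc
      (fun x => (hgb x).trans (by simp only [B]; linarith))
      (fun x => by
        rw [hgd, norm_smul, Real.norm_eq_abs]
        refine (mul_le_mul (hqb x) (hfd x) (norm_nonneg _) (by positivity)).trans ?_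
        rw [div_mul_eq_mul_div]
        simp only [B]
        linarith [abs_nonneg (log η), abs_nonneg (log (M ^ 2 + 1))])
      (fun x y => by
        rw [hgd, hgd, show q x • fderiv ℝ f x - q y • fderiv ℝ f y
          = (q x - q y) • fderiv ℝ f x + q y • (fderiv ℝ f x - fderiv ℝ f y) by module]
        refine (norm_add_le _ _).trans ?_
        rw [norm_smul, norm_smul, Real.norm_eq_abs, Real.norm_eq_abs]
        refine (add_le_add (mul_le_mul (hql x y) (hfd x) (norm_nonneg _) (by positivity))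
          (mul_le_mul (hqb y) (hfl x y) (norm_nonneg _) (by positivity))).trans ?_
        have e : 2 / η * (M * ‖x - y‖) * M + 2 * M / η * (M * ‖x - y‖)
            = (2 * M * M / η + 2 * M * M / η) * ‖x - y‖ := by ring
        rw [e]
        refine mul_le_mul_of_nonneg_right ?_ (norm_nonneg _)
        simp only [B]
        linarith [abs_nonneg (log η), abs_nonneg (log (M ^ 2 + 1))])
    have he : ∀ x, exp (g x) = f x ^ 2 + η := fun x => exp_log (hp x)
    simp only [he] at hlsi
    refine hlsi.trans ?_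
    rw [show 2 / t * energy μ f = 1 / (2 * t) * ∫ x, 4 * ‖fderiv ℝ f x‖ ^ 2 ∂μ by
      rw [integral_const_mul, energy]; ring]
    refine mul_le_mul_of_nonneg_left (integral_mono_of_nonneg
      (ae_of_all _ fun x => mul_nonneg (hp x).le (sq_nonneg _)) (hIi.const_mul 4)
      (ae_of_all _ fun x => ?_)) (by positivity)
    dsimp only
    rw [hgd, norm_smul, mul_pow, Real.norm_eq_abs, sq_abs]
    have e : (f x ^ 2 + η) * (q x ^ 2 * ‖fderiv ℝ f x‖ ^ 2)
        = 4 * ‖fderiv ℝ f x‖ ^ 2 * (f x ^ 2 / (f x ^ 2 + η)) := by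
      simp only [q]
      field_simp [(hp x).ne']
      ring
    rw [e]
    exact mul_le_of_le_one_right (by positivity) ((div_le_one (hp x)).2 (by linarith))
  have hG : Continuous fun z : ℝ => z * log z := Real.continuous_mul_log
  obtain ⟨K, hK⟩ := (isCompact_Icc (a := (0 : ℝ)) (b := M ^ 2 + 1)).exists_bound_of_continuousOn
    hG.continuousOn
  have hmem : ∀ᶠ η in 𝓝[>] (0 : ℝ), 0 < η ∧ η ≤ 1 :=
    Filter.Eventually.and self_mem_nhdsWithin (nhdsWithin_le_nhds (eventually_le_nhds one_pos))
  have hT1 : Tendsto (fun η : ℝ => ∫ x, (f x ^ 2 + η) * log (f x ^ 2 + η) ∂μ) (𝓝[>] 0)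
      (𝓝 (∫ x, f x ^ 2 * log (f x ^ 2) ∂μ)) := by
    refine tendsto_integral_filter_of_dominated_convergence (fun _ => K)
      (Eventually.of_forall fun η => (hG.comp ((hc.pow 2).add continuous_const)).aestronglyMeasurable)
      (hmem.mono fun η hη => ae_of_all _ fun x => hK _ ⟨by linarith [sq_nonneg (f x)], by
        nlinarith [pow_le_pow_left₀ (abs_nonneg _) (hfb x) 2, sq_abs (f x)]⟩)
      (integrable_const _) (ae_of_all _ fun x => ?_)
    have h : ContinuousAt (fun η : ℝ => (f x ^ 2 + η) * log (f x ^ 2 + η)) 0 :=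
      (hG.comp (continuous_const.add continuous_id)).continuousAt
    simpa using h.tendsto.mono_left nhdsWithin_le_nhds
  have h2i : Integrable (fun x => f x ^ 2) μ := integrable_bdd (hc.pow 2) (M := M ^ 2) fun x => by
    rw [abs_pow]; exact pow_le_pow_left₀ (abs_nonneg _) (hfb x) 2
  have hT2 : Tendsto (fun η : ℝ => (∫ x, (f x ^ 2 + η) ∂μ) * log (∫ x, (f x ^ 2 + η) ∂μ))
      (𝓝[>] 0) (𝓝 ((∫ x, f x ^ 2 ∂μ) * log (∫ x, f x ^ 2 ∂μ))) := by
    simp only [integral_add h2i (integrable_const _), integral_const, probReal_univ, one_smul]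
    have h : ContinuousAt (fun η : ℝ => ((∫ x, f x ^ 2 ∂μ) + η)
        * log ((∫ x, f x ^ 2 ∂μ) + η)) 0 :=
      (hG.comp (continuous_const.add continuous_id)).continuousAt
    simpa using h.tendsto.mono_left nhdsWithin_le_nhds
  exact le_of_tendsto (hT1.sub hT2) (hmem.mono fun η hη => key η hη.1 hη.2)

/-- Second order lower bound for `a log a` at `a = (1 + s)²`. -/
lemma sq_mul_log_ge {s : ℝ} (hs : |s| ≤ 1 / 2) :
    2 * s + 3 * s ^ 2 - 10 * |s| ^ 3 ≤ (1 + s) ^ 2 * log ((1 + s) ^ 2) := by
  have hs1 : |-s| < 1 := by rw [abs_neg]; linarith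
  have h := Real.abs_log_sub_add_sum_range_le hs1 2
  simp only [Finset.sum_range_succ, Finset.sum_range_zero, abs_neg, sub_neg_eq_add] at h
  norm_num at h
  have h2 : |s| ^ 3 / (1 - |s|) ≤ 2 * |s| ^ 3 := by
    rw [div_le_iff₀ (by linarith)]
    nlinarith [pow_nonneg (abs_nonneg s) 3]
  have h3 : s - s ^ 2 / 2 - 2 * |s| ^ 3 ≤ log (1 + s) := by
    linarith [(abs_le.1 h).1]
  rw [Real.log_pow]
  have h4 := mul_le_mul_of_nonneg_left h3 (sq_nonneg (1 + s))
  have h5 : (1 + s) ^ 2 ≤ 9 / 4 := by nlinarith [abs_le.1 hs]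
  have h6 : s ^ 4 ≤ |s| ^ 3 / 2 := by
    have : s ^ 4 = |s| ^ 3 * |s| := by rw [← pow_succ]; exact (Even.pow_abs (by decide) s).symm
    nlinarith [pow_nonneg (abs_nonneg s) 3]
  have h7 := mul_le_mul_of_nonneg_right h5 (pow_nonneg (abs_nonneg s) 3)
  push_cast
  nlinarith

/-- `PoincareSLC`. -/
theorem poincareSLC : PoincareSLC := by
  intro n t μ hμ ht hslc f hf
  obtain ⟨hfc, M₀, hM₀⟩ := hf
  set m₀ := ∫ y, f y ∂μ
  set u := fun x => f x - m₀
  have hfi : Integrable f μ := integrable_bdd hfc.continuous fun x => (hM₀ x).1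
  set M := M₀ + |m₀| + 1
  have hM : ∀ x, |u x| ≤ M := fun x =>
    (abs_sub _ _).trans (by linarith [(hM₀ x).1])
  have hMp : 0 < M := by
    have := (abs_nonneg _).trans (hM₀ 0).1
    positivity
  have hu : Continuous u := hfc.continuous.sub continuous_const
  have hu0 : ∫ x, u x ∂μ = 0 := by
    rw [integral_sub hfi (integrable_const _), integral_const, probReal_univ, one_smul, sub_self]
  set V := vr μ f
  set I := energy μ f
  have hV : ∫ x, u x ^ 2 ∂μ = V := rfl
  have hV0 : 0 ≤ V := integral_nonneg fun x => sq_nonneg _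
  have iu : Integrable u μ := integrable_bdd hu hM
  have iu2 : Integrable (fun x => u x ^ 2) μ := integrable_bdd (hu.pow 2) (M := M ^ 2) fun x => by
    rw [abs_pow]; exact pow_le_pow_left₀ (abs_nonneg _) (hM x) 2
  have key : ∀ e, 0 < e → e * M ≤ 1 / 2 →
      2 * V - e * (10 * M ^ 3) - e ^ 2 * V ^ 2 ≤ 2 / t * I := by
    intro e he heM
    have hse : ∀ x, |e * u x| ≤ e * M := fun x => by
      rw [abs_mul, abs_of_pos he]; exact mul_le_mul_of_nonneg_left (hM x) he.le
    set F := fun x => 1 + e * u x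
    have hFd : ∀ x, fderiv ℝ F x = e • fderiv ℝ f x := fun x =>
      ((((hfc.differentiable one_ne_zero x).hasFDerivAt).sub_const m₀).const_mul e |>.const_add 1).fderiv
    have hF : Test F := by
      refine ⟨contDiff_const.add (contDiff_const.mul (hfc.sub contDiff_const)),
        max 2 (e * M₀), fun x => ⟨?_, ?_, fun y => ?_⟩⟩
      · refine le_trans ?_ (le_max_left _ _)
        refine (abs_add_le _ _).trans ?_
        rw [abs_one]; linarith [hse x]
      · rw [hFd, norm_smul, Real.norm_eq_abs, abs_of_pos he]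
        exact (mul_le_mul_of_nonneg_left (hM₀ x).2.1 he.le).trans (le_max_right _ _)
      · rw [hFd, hFd, ← smul_sub, norm_smul, Real.norm_eq_abs, abs_of_pos he]
        refine (mul_le_mul_of_nonneg_left ((hM₀ x).2.2 y) he.le).trans ?_
        rw [← mul_assoc]
        exact mul_le_mul_of_nonneg_right (le_max_right _ _) (norm_nonneg _)
    have h := lsiSLC n t μ hμ ht hslc F hF
    have hE : energy μ F = e ^ 2 * I := by
      simp only [energy, hFd, norm_smul, mul_pow, Real.norm_eq_abs, sq_abs, integral_const_mul, I]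
    have hm : ∫ x, F x ^ 2 ∂μ = 1 + e ^ 2 * V := by
      rw [show (fun x => F x ^ 2) = fun x => 1 + (2 * e * u x + e ^ 2 * u x ^ 2) from
        funext fun x => by simp only [F]; ring,
        integral_add (integrable_const _) (g := fun x => 2 * e * u x + e ^ 2 * u x ^ 2)
          ((iu.const_mul _).add (iu2.const_mul _)),
        integral_add (iu.const_mul _) (iu2.const_mul _), integral_const, probReal_univ, one_smul,
        integral_const_mul, integral_const_mul, hu0, hV]
      ring
    have hlo : e ^ 2 * (3 * V) - e ^ 3 * (10 * M ^ 3) ≤ ∫ x, F x ^ 2 * log (F x ^ 2) ∂μ := by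
      have i0 : Integrable (fun x => F x ^ 2 * log (F x ^ 2)) μ := by
        obtain ⟨K, hK⟩ := (isCompact_Icc (a := (0 : ℝ)) (b := 4)).exists_bound_of_continuousOn
          Real.continuous_mul_log.continuousOn
        refine integrable_bdd (Real.continuous_mul_log.comp
          ((continuous_const.add (continuous_const.mul hu)).pow 2)) (M := K) fun x =>
            hK _ ⟨sq_nonneg _, ?_⟩
        have h1 := abs_le.1 ((hse x).trans heM)
        simp only [F]
        nlinarith
      have hpt : ∀ x, 2 * e * u x + (3 * e ^ 2 * u x ^ 2 - e ^ 3 * (10 * M ^ 3))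
          ≤ F x ^ 2 * log (F x ^ 2) := fun x => by
        have h1 := sq_mul_log_ge ((hse x).trans heM)
        have h2 := pow_le_pow_left₀ (abs_nonneg _) (hse x) 3
        simp only [F]
        nlinarith
      have h2 := integral_mono ((iu.const_mul (2 * e)).add
        ((iu2.const_mul (3 * e ^ 2)).sub (integrable_const _))) i0 hpt
      simp only [Pi.add_apply, Pi.sub_apply] at h2
      rw [integral_add (iu.const_mul _) (g := fun x => 3 * e ^ 2 * u x ^ 2 - e ^ 3 * (10 * M ^ 3))
          ((iu2.const_mul _).sub (integrable_const _)),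
        integral_sub (iu2.const_mul _) (integrable_const _), integral_const, probReal_univ,
        one_smul, integral_const_mul, integral_const_mul, hu0, hV] at h2
      linarith
    have hpos : 0 < 1 + e ^ 2 * V := by positivity
    have hup := mul_le_mul_of_nonneg_left (log_le_sub_one_of_pos hpos) hpos.le
    simp only [entropy, hm, hE] at h
    refine le_of_mul_le_mul_left ?_ (pow_pos he 2)
    nlinarith
  have ht0 : Tendsto (fun e : ℝ => 2 * V - e * (10 * M ^ 3) - e ^ 2 * V ^ 2) (𝓝[>] 0)
      (𝓝 (2 * V)) := by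
    have h : Continuous (fun e : ℝ => 2 * V - e * (10 * M ^ 3) - e ^ 2 * V ^ 2) := by fun_prop
    simpa using (h.tendsto 0).mono_left nhdsWithin_le_nhds
  have hev : ∀ᶠ e in 𝓝[>] (0 : ℝ), 2 * V - e * (10 * M ^ 3) - e ^ 2 * V ^ 2 ≤ 2 / t * I := by
    have h1 : ∀ᶠ e in 𝓝[>] (0 : ℝ), e * M ≤ 1 / 2 := by
      have h : ContinuousAt (fun e : ℝ => e * M) 0 := by fun_prop
      exact nhdsWithin_le_nhds (h.eventually_le_const (by norm_num))
    filter_upwards [h1, self_mem_nhdsWithin] with e he1 he2 using key e he2 he1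
  have := le_of_tendsto ht0 hev
  rw [show 2 / t * I = 2 * (1 / t * I) by ring] at this
  linarith

/-- `LinVarSLC`. -/
theorem linVarSLC : LinVarSLC := by
  intro n t μ hμ ht hslc hbd v
  obtain ⟨R, hR⟩ := hbd
  set X := fun x : Rn n => ⟪x, v⟫
  have hX : Continuous X := by fun_prop
  set fa := fun (a : ℝ) (x : Rn n) => sin (a * X x) / a
  have hXd : ∀ x, HasFDerivAt X (innerSL ℝ v) x := fun x =>
    ((innerSL ℝ v).hasFDerivAt (x := x)).congr_of_eventuallyEq
      (Eventually.of_forall fun y => real_inner_comm v y)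
  have hfd : ∀ a : ℝ, a ≠ 0 → ∀ x, fderiv ℝ (fa a) x = cos (a * X x) • innerSL ℝ v := fun a ha x => by
    have h := (((hXd x).const_mul a).sin).mul_const a⁻¹
    simp only [← div_eq_mul_inv] at h
    rw [h.fderiv, smul_smul, smul_smul]
    congr 1
    field_simp
  have hfa : ∀ a : ℝ, 0 < a → Test (fa a) := by
    intro a ha
    refine ⟨(ContDiff.sin (contDiff_const.mul (contDiff_id.inner ℝ contDiff_const))).div_const a,
      1 / a + ‖v‖ + a * ‖v‖ * ‖v‖, fun x => ⟨?_, ?_, fun y => ?_⟩⟩
    · simp only [fa]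
      rw [abs_div, abs_of_pos ha]
      have h1 : |sin (a * X x)| / a ≤ 1 / a := div_le_div_of_nonneg_right (abs_sin_le_one _) ha.le
      have : 0 ≤ ‖v‖ + a * ‖v‖ * ‖v‖ := by positivity
      linarith
    · rw [hfd a ha.ne', norm_smul, innerSL_apply_norm, Real.norm_eq_abs]
      have h1 := mul_le_mul_of_nonneg_right (abs_cos_le_one (a * X x)) (norm_nonneg v)
      have : 0 ≤ 1 / a + a * ‖v‖ * ‖v‖ := by positivity
      linarith
    · rw [hfd a ha.ne', hfd a ha.ne', ← sub_smul, norm_smul, innerSL_apply_norm, Real.norm_eq_abs]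
      have h1 : |cos (a * X x) - cos (a * X y)| ≤ a * ‖v‖ * ‖x - y‖ := by
        refine le_trans (by
          simpa [← Real.dist_eq] using lipschitzWith_cos.dist_le_mul (a * X x) (a * X y)) ?_
        simp only [X]
        rw [Real.dist_eq, ← mul_sub, ← inner_sub_left, abs_mul, abs_of_pos ha, mul_assoc, mul_comm ‖v‖]
        exact mul_le_mul_of_nonneg_left (abs_real_inner_le_norm _ _) ha.le
      refine (mul_le_mul_of_nonneg_right h1 (norm_nonneg v)).trans ?_
      rw [mul_right_comm]
      refine mul_le_mul_of_nonneg_right ?_ (norm_nonneg _)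
      have : 0 ≤ 1 / a + ‖v‖ := by positivity
      linarith
  have hP : ∀ a : ℝ, 0 < a → vr μ (fa a) ≤ 1 / t * ‖v‖ ^ 2 := fun a ha => by
    refine (poincareSLC n t μ hμ ht hslc (fa a) (hfa a ha)).trans
      (mul_le_mul_of_nonneg_left ?_ (by positivity))
    refine (integral_mono_of_nonneg (ae_of_all _ fun x => sq_nonneg _) (integrable_const (‖v‖ ^ 2))
      (ae_of_all _ fun x => ?_)).trans_eq (by simp)
    show ‖fderiv ℝ (fa a) x‖ ^ 2 ≤ ‖v‖ ^ 2
    rw [hfd a ha.ne', norm_smul, innerSL_apply_norm, mul_pow, Real.norm_eq_abs, sq_abs]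
    exact mul_le_of_le_one_left (sq_nonneg _) (cos_sq_le_one _)
  have hpt : ∀ x, Tendsto (fun a => fa a x) (𝓝[>] 0) (𝓝 (X x)) := fun x => by
    have h : HasDerivAt (fun a : ℝ => sin (a * X x)) (X x) 0 := by
      simpa using ((hasDerivAt_id (0 : ℝ)).mul_const (X x)).sin
    have h2 := h.tendsto_slope_zero_right
    simpa [fa, div_eq_inv_mul] using h2
  have hb : ∀ (a : ℝ), 0 < a → ∀ᵐ x ∂μ, |fa a x| ≤ ‖v‖ * R := fun a ha => hR.mono fun x hx => by
    simp only [fa]
    rw [abs_div, abs_of_pos ha, div_le_iff₀ ha]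
    refine abs_sin_le_abs.trans ?_
    rw [abs_mul, abs_of_pos ha, mul_comm]
    refine mul_le_mul_of_nonneg_right ((abs_real_inner_le_norm x v).trans ?_) ha.le
    rw [mul_comm]
    exact mul_le_mul_of_nonneg_left hx (norm_nonneg v)
  have hmeas : ∀ a : ℝ, AEStronglyMeasurable (fa a) μ := fun a =>
    ((continuous_sin.comp (continuous_const.mul hX)).div_const a).aestronglyMeasurable
  have hm1 : Tendsto (fun a => ∫ x, fa a x ∂μ) (𝓝[>] 0) (𝓝 (∫ x, X x ∂μ)) :=
    tendsto_integral_filter_of_dominated_convergence (fun _ => ‖v‖ * R)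
      (Eventually.of_forall hmeas)
      (Filter.Eventually.mono self_mem_nhdsWithin fun a ha => hb a ha)
      (integrable_const _) (ae_of_all _ hpt)
  have hm2 : Tendsto (fun a => vr μ (fa a)) (𝓝[>] 0) (𝓝 (vr μ X)) := by
    refine tendsto_integral_filter_of_dominated_convergence (fun _ => (‖v‖ * R + ‖v‖ * R) ^ 2)
      (Eventually.of_forall fun a => ((hmeas a).sub aestronglyMeasurable_const).pow 2)
      (Filter.Eventually.mono self_mem_nhdsWithin fun a ha => (hb a ha).mono fun x hx => ?_)
      (integrable_const _) (ae_of_all _ fun x => ((hpt x).sub hm1).pow 2)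
    rw [Real.norm_eq_abs, abs_pow]
    refine pow_le_pow_left₀ (abs_nonneg _) ((abs_sub _ _).trans (add_le_add hx ?_)) 2
    have := norm_integral_le_of_norm_le_const (μ := μ)
      ((hb a ha).mono fun y hy => show ‖fa a y‖ ≤ ‖v‖ * R from hy)
    simpa using this
  exact le_of_tendsto hm2 (Filter.Eventually.mono self_mem_nhdsWithin fun a ha => hP a ha)

end Vale.Agent.P245
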